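import Mathlib
import Vale.Agent.Lib.P248.helper1.ConeAux

/-!
# P248, job CQC1b (second copy of helper6): the polar of the cone about an interior point of
the form given by height τ h and tail (1 - τ) ζ + τ c, with ζ in D, lies in the shear preimage
of the slab model.
-/

namespace Vale.Agent.Lib.P248.H6

open MeasureTheory Set
open scoped ENNReal
open Vale.Agent.Lib.P227 Vale.Agent.Lib.P248.H1

theorem inner_ecomb_right {n : ℕ} (t : ℝ) (w : EuclideanSpace ℝ (Fin n))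
    (y : EuclideanSpace ℝ (Fin (n + 1))) :
    inner ℝ (ecomb t w) y = t * y 0 + inner ℝ w (etail y) := by
  have h := inner_ecomb t (y 0) w (etail y)
  rwa [ecomb_eta] at h

theorem polar_subset_shear_preimage {n : ℕ} (D : Set (EuclideanSpace ℝ (Fin n)))
    (c ζ : EuclideanSpace ℝ (Fin n)) (hζ : ζ ∈ D) (h τ : ℝ) (hh : 0 < h) (hτ0 : 0 < τ)
    (hτ1 : τ < 1) :
    polarAt (coneE D c h) (ecomb (τ * h) ((1 - τ) • ζ + τ • c)) ⊆
      shear (c - ζ) h ⁻¹' polarModel D ζ τ := by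
  intro y hy
  have _hpos : 0 < h := hh
  have hy' : ∀ x ∈ coneE D c h,
      inner ℝ (x - ecomb (τ * h) ((1 - τ) • ζ + τ • c)) y ≤ 1 := hy
  have hz : inner ℝ (ecomb (τ * h) ((1 - τ) • ζ + τ • c)) y =
      τ * h * y 0 + ((1 - τ) * inner ℝ ζ (etail y) + τ * inner ℝ c (etail y)) := by
    rw [inner_ecomb_right, inner_add_left, real_inner_smul_left, real_inner_smul_left]
  have hbase : ∀ d ∈ D, inner ℝ (d - ζ) (etail y) ≤
      1 + τ * (h * y 0 + inner ℝ (c - ζ) (etail y)) := by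
    intro d hd
    have hx : ecomb ((0 : ℝ) * h) ((1 - (0 : ℝ)) • d + (0 : ℝ) • c) ∈ coneE D c h :=
      ⟨d, hd, 0, le_refl 0, zero_le_one, rfl⟩
    have h1 := hy' _ hx
    rw [inner_sub_left, inner_ecomb_right, hz, inner_add_left, real_inner_smul_left,
      real_inner_smul_left] at h1
    rw [inner_sub_left, inner_sub_left]
    linarith
  have hapex : (h * y 0 + inner ℝ (c - ζ) (etail y)) * (1 - τ) ≤ 1 := by
    have hx : ecomb ((1 : ℝ) * h) ((1 - (1 : ℝ)) • ζ + (1 : ℝ) • c) ∈ coneE D c h :=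
      ⟨ζ, hζ, 1, zero_le_one, le_refl 1, rfl⟩
    have h1 := hy' _ hx
    rw [inner_sub_left, inner_ecomb_right, hz, inner_add_left, real_inner_smul_left,
      real_inner_smul_left] at h1
    rw [inner_sub_left]
    linarith
  have hlow : 0 ≤ 1 + τ * (h * y 0 + inner ℝ (c - ζ) (etail y)) := by
    have h1 := hbase ζ hζ
    rwa [sub_self, inner_zero_left] at h1
  show -1 / τ ≤ (ecomb (h * y 0 + inner ℝ (c - ζ) (etail y)) (etail y)) 0 ∧
    (ecomb (h * y 0 + inner ℝ (c - ζ) (etail y)) (etail y)) 0 ≤ 1 / (1 - τ) ∧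
    ∀ d ∈ D, inner ℝ (d - ζ) (etail (ecomb (h * y 0 + inner ℝ (c - ζ) (etail y)) (etail y))) ≤
      1 + τ * (ecomb (h * y 0 + inner ℝ (c - ζ) (etail y)) (etail y)) 0
  rw [ecomb_zero, etail_ecomb]
  refine ⟨?_, ?_, hbase⟩
  · rw [div_le_iff₀ hτ0]
    linarith
  · rw [le_div_iff₀ (by linarith : (0 : ℝ) < 1 - τ)]
    exact hapex

end Vale.Agent.Lib.P248.H6
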